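import Vale.Agent.P011.D4Y.Defs
import Vale.Agent.P011.E6I.H64.Real
import Mathlib.FieldTheory.Fixed
import Mathlib.NumberTheory.NumberField.Basic

/-!
Block D4Y: the field `E` is finite over `k`; the real places of `L`.
-/

open NumberField

namespace Vale.Agent.P011.D4Y

open Vale.Agent.P011.D4 Vale.Agent.P011.D4.Oct

section grp

variable {G : Type} [Group G] {r i s : G}

theorem H68.conj_pow (hi : i * r = r ^ 2 * i) (n : ℕ) : i * r ^ n = r ^ (2 * n) * i := by
  induction n with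
  | zero => simp
  | succ n ih =>
    rw [pow_succ, ← mul_assoc, ih, mul_assoc, hi, ← mul_assoc, ← pow_add]
    congr 2

theorem H68.finite_closure (hr : r ^ 3 = 1) (hi2 : i ^ 2 = 1) (hs2 : s ^ 2 = 1)
    (hi : i * r = r ^ 2 * i) (hsr : s * r = r * s) (hsi : s * i = i * s) :
    Finite (Subgroup.closure ({r, i, s} : Set G)) := by
  have key : ∀ g ∈ Subgroup.closure ({r, i, s} : Set G),
      ∃ n m l : ℕ, g = r ^ n * i ^ m * s ^ l := by
    have hR : ∀ g, (∃ n m l : ℕ, g = r ^ n * i ^ m * s ^ l) →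
        ∃ n m l : ℕ, r * g = r ^ n * i ^ m * s ^ l := by
      rintro g ⟨n, m, l, rfl⟩
      exact ⟨n + 1, m, l, by rw [pow_succ']; group⟩
    have hI : ∀ g, (∃ n m l : ℕ, g = r ^ n * i ^ m * s ^ l) →
        ∃ n m l : ℕ, i * g = r ^ n * i ^ m * s ^ l := by
      rintro g ⟨n, m, l, rfl⟩
      exact ⟨2 * n, m + 1, l, by
        rw [← mul_assoc, ← mul_assoc, H68.conj_pow hi, pow_succ' i, ← mul_assoc]⟩
    have hS : ∀ g, (∃ n m l : ℕ, g = r ^ n * i ^ m * s ^ l) →
        ∃ n m l : ℕ, s * g = r ^ n * i ^ m * s ^ l := by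
      rintro g ⟨n, m, l, rfl⟩
      refine ⟨n, m, l + 1, ?_⟩
      have h1 : Commute s (r ^ n) := Commute.pow_right hsr n
      have h2 : Commute s (i ^ m) := Commute.pow_right hsi m
      rw [← mul_assoc, ← mul_assoc, h1.eq, mul_assoc (r ^ n), h2.eq, pow_succ' s, ← mul_assoc,
        ← mul_assoc]
    have er : r⁻¹ = r * r := by
      rw [inv_eq_iff_mul_eq_one, ← hr, pow_succ', pow_two]
    have ei : i⁻¹ = i := by
      rw [inv_eq_iff_mul_eq_one, ← hi2, pow_two]
    have es : s⁻¹ = s := by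
      rw [inv_eq_iff_mul_eq_one, ← hs2, pow_two]
    intro g hg
    induction hg using Subgroup.closure_induction_left with
    | one => exact ⟨0, 0, 0, by simp⟩
    | mul_left x hx y _ hy =>
      rcases hx with rfl | rfl | rfl
      · exact hR _ hy
      · exact hI _ hy
      · exact hS _ hy
    | inv_mul_cancel x hx y _ hy =>
      rcases hx with rfl | rfl | rfl
      · rw [er, mul_assoc]
        exact hR _ (hR _ hy)
      · rw [ei]
        exact hI _ hy
      · rw [es]
        exact hS _ hy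
  let f : Fin 3 × Fin 2 × Fin 2 → G := fun p => r ^ (p.1 : ℕ) * i ^ (p.2.1 : ℕ) * s ^ (p.2.2 : ℕ)
  have hf : (Set.range f).Finite := Set.finite_range f
  refine (hf.subset ?_).to_subtype
  intro g hg
  obtain ⟨n, m, l, rfl⟩ := key g hg
  refine ⟨(⟨n % 3, Nat.mod_lt _ (by norm_num)⟩, ⟨m % 2, Nat.mod_lt _ (by norm_num)⟩,
    ⟨l % 2, Nat.mod_lt _ (by norm_num)⟩), ?_⟩
  change r ^ (n % 3) * i ^ (m % 2) * s ^ (l % 2) = _
  rw [← pow_eq_pow_mod n hr, ← pow_eq_pow_mod m hi2, ← pow_eq_pow_mod l hs2]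

end grp

section fld

variable {k L E : Type} [Field k] [Field L] [Field E] [Algebra k L] [Algebra k E] [Algebra L E]
  [IsScalarTower k L E] {ρ σ ι : E ≃ₐ[k] E} {α : E} {a b c : kˣ} {q : Lˣ}

/-- The field `E` is finite over the fixed field of `ρ`, `σ`, `ι`. -/
theorem H68.finite_of (ρ3 : ∀ x, ρ (ρ (ρ x)) = x) (σ2 : ∀ x, σ (σ x) = x)
    (ι2 : ∀ x, ι (ι x) = x) (comm : ∀ x, σ (ρ x) = ρ (σ x)) (σι : ∀ x, σ (ι x) = ι (σ x))
    (ιρ : ∀ x, ι (ρ x) = ρ (ρ (ι x)))
    (fixk : ∀ x : E, ρ x = x → σ x = x → ι x = x → ∃ t : k, algebraMap k E t = x) :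
    FiniteDimensional k E := by
  have hfin : Finite (Subgroup.closure ({ρ, ι, σ} : Set (E ≃ₐ[k] E))) :=
    H68.finite_closure (r := ρ) (i := ι) (s := σ) (AlgEquiv.ext ρ3) (AlgEquiv.ext ι2)
      (AlgEquiv.ext σ2) (AlgEquiv.ext ιρ) (AlgEquiv.ext comm) (AlgEquiv.ext σι)
  let G := Subgroup.closure ({ρ, ι, σ} : Set (E ≃ₐ[k] E))
  have hG : Finite G := hfin
  have h1 : FiniteDimensional (FixedPoints.subfield G E) E := inferInstance
  obtain ⟨s, hs⟩ := h1.fg_top
  refine ⟨⟨s, ?_⟩⟩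
  rw [eq_top_iff]
  intro x _
  have hx : x ∈ Submodule.span (FixedPoints.subfield G E) (s : Set E) := by
    rw [hs]; exact Submodule.mem_top
  induction hx using Submodule.span_induction with
  | mem x hx => exact Submodule.subset_span hx
  | zero => exact Submodule.zero_mem _
  | add x y _ _ hx hy => exact Submodule.add_mem _ (hx trivial) (hy trivial)
  | smul t x _ hx =>
    have ht : ∀ g ∈ G, g (t : E) = t := fun g hg => t.2 ⟨g, hg⟩
    obtain ⟨u, hu⟩ := fixk (t : E) (ht ρ (Subgroup.subset_closure (by simp)))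
      (ht σ (Subgroup.subset_closure (by simp))) (ht ι (Subgroup.subset_closure (by simp)))
    have e : t • x = u • x := by
      rw [Algebra.smul_def u, hu]
      rfl
    rw [e]
    exact Submodule.smul_mem _ _ (hx trivial)

theorem HyI.finite (H : HyI ρ σ ι α a b c q) : FiniteDimensional k E :=
  H68.finite_of H.ρ3 H.σ2 H.ι2 H.comm H.σι H.ιρ H.fixk

theorem HyI.finiteL (H : HyI ρ σ ι α a b c q) : FiniteDimensional L E :=
  have := H.finite
  FiniteDimensional.right k L E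

theorem HyI.numberField [NumberField k] (H : HyI ρ σ ι α a b c q) : NumberField E :=
  have := H.finite
  NumberField.of_module_finite k E

/-- A real embedding extends to a complex embedding of an algebraic extension. -/
theorem H68.exists_lift {F E : Type} [Field F] [Field E] [Algebra F E] [Algebra.IsAlgebraic F E]
    (w : F →+* ℝ) : ∃ W : E →+* ℂ, ∀ t, W (algebraMap F E t) = ((w t : ℝ) : ℂ) := by
  let _ : Algebra F ℂ := ((algebraMap ℝ ℂ).comp w).toAlgebra
  have h : ∃ W : E →ₐ[F] ℂ, True := ⟨IsAlgClosed.lift, trivial⟩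
  obtain ⟨W, -⟩ := h
  exact ⟨W, fun t => W.commutes t⟩

/-- A compact real place of `L`. -/
theorem HyI.cpL (H : HyI ρ σ ι α a b c q) : ∃ w : L →+* ℝ, w (algebraMap k L a) < 0 ∧
    w (algebraMap k L b) < 0 ∧ w (algebraMap k L c) < 0 ∧ 0 < w (q : L) := by
  obtain ⟨τ, h1, h2, h3, h4⟩ := H.cp
  have := τ.charZero
  obtain ⟨w, hw⟩ := E6I.exists_real_over (L := L) H.h3 τ
  have h5 := h4 w hw
  rw [← hw] at h1 h2 h3
  exact ⟨w, h1, h2, h3, h5⟩

/-- At a real place where `b` is positive the algebra `Q₁` is definite at one of the places. -/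
theorem HyI.exists_neg (H : HyI ρ σ ι α a b c q) {τ : k →+* ℝ} (ha : τ a < 0) (hb : 0 < τ b) :
    ∃ w : L →+* ℝ, w.comp (algebraMap k L) = τ ∧ w (q : L) < 0 := by
  by_contra hcon
  push Not at hcon
  refine absurd (H.hre τ ha fun w hw => ?_).1 (not_lt.2 hb.le)
  exact lt_of_le_of_ne (hcon w hw) ((map_ne_zero w).2 q.ne_zero).symm

end fld

end Vale.Agent.P011.D4Y
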