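import Vale.Agent.P011.D4Y.Defs
import Vale.Agent.P011.D4X.H369.AutI

/-!
Block D4Y, row F1a: the elements of the group which fix `e₊` come from automorphisms of the
octonion algebra over the ground field which fix `i`, and lie in the finite residual.
-/

open NumberField Topology

namespace Vale.Agent.P011.D4Y.H68

open Vale.Agent.P011.MPQ Vale.Agent.P011.D4 Vale.Agent.P011.D4.Oct Vale.Agent.P011.D4.Em
open Vale.Agent.P011.D4.B.FI (fixI fixI_top mem_fixI)
open Vale.Agent.P011.D4X Vale.Agent.P011.D4X.H369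

section alg

variable {k L E : Type} [Field k] [Field L] [Field E] [Algebra k L] [Algebra k E] [Algebra L E]
  [IsScalarTower k L E] {ρ σ ι : E ≃ₐ[k] E} {α : E} {a b c : kˣ} {q : Lˣ}

variable [NeZero (2 : E)]

theorem extE_Im (g : fixI a b c) (x : OctL E a b c) :
    extE E g.1.1 (Im ι x) = Im ι (extE E g.1.1 x) := by
  have h2 : ∀ x : OctL E a b c, omap ι (extE E g.1.1 x) = extE E g.1.1 (omap ι x) :=
    fun x => omap_extL ι _ x
  have h3 : ∀ x : OctL E a b c, extE E g.1.1 (star x) = star (extE E g.1.1 x) :=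
    fun x => extL_star (aut_star g.1) x
  rw [Im, Im, ← h3, h2]

theorem extE_memI (g : fixI a b c) : extE E g.1.1 ∈ GTI ρ σ ι α a b c q :=
  ⟨tri_extL ρ (fun u v => g.1.2 u v) (aut_star g.1), extE_Jm g, extE_Im g⟩

/-- The extension of scalars. -/
def extI (ρ σ ι : E ≃ₐ[k] E) (α : E) (a b c : kˣ) (q : Lˣ) :
    fixI a b c →* GTI ρ σ ι α a b c q where
  toFun g := ⟨extE E g.1.1, extE_memI g⟩
  map_one' := Subtype.ext extE_id
  map_mul' g h := Subtype.ext (extE_mul g.1 h.1)

/-- The facts on the elements which fix `e₊`. -/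
theorem factsE (hα2 : α * α = algebraMap k E a) (hσα : σ α = -α) (hρ3 : ∀ x, ρ (ρ (ρ x)) = x)
    {g : OctL E a b c ≃ₗ[E] OctL E a b c}
    (hg1 : ∀ x y, g (tri ρ x y) = tri ρ (g x) (g y))
    (hg2 : ∀ x, g (Jm ρ σ α q x) = Jm ρ σ α q (g x))
    (he : g (ep α) = ep α) : g 1 = 1 ∧ (∀ x y, g (x * y) = g x * g y) ∧
      (∀ x, g (star x) = star (g x)) ∧
      (∀ x, g (omap ρ x) = omap ρ (g x)) ∧ ∀ x, g (omap σ x) = omap σ (g x) := by
  have h1 : g 1 = 1 := by
    have h2 := hg2 (ep α)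
    rw [he, Jm_ep hα2 hσα] at h2
    have h3 : (1 : OctL E a b c) = (1 - ep α) + ep α := by abel
    conv_lhs => rw [h3]
    rw [map_add, h2, he]
    abel
  have hA : ∀ x, g (omap ρ (star x)) = omap ρ (star (g x)) := by
    intro x
    have h2 := hg1 x 1
    simpa [tri, h1] using h2
  have hB : ∀ x, g (omap ρ (omap ρ (star x))) = omap ρ (omap ρ (star (g x))) := by
    intro x
    have h2 := hg1 1 x
    simpa [tri, h1] using h2
  have hC : ∀ x, g (omap ρ (omap ρ x)) = omap ρ (omap ρ (g x)) := by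
    intro x
    have h2 := hA (omap ρ (star x))
    rw [← omap_star, star_star] at h2
    rw [h2, hA, ← omap_star, star_star]
  have hρ3' : ∀ x : OctL E a b c, omap ρ (omap ρ (omap ρ x)) = x := by
    intro x
    apply Oct.ext
    · apply QuaternionAlgebra.ext <;> exact hρ3 _
    · apply QuaternionAlgebra.ext <;> exact hρ3 _
  have hS : ∀ x, g (star x) = star (g x) := by
    intro x
    have h2 := hB x
    rw [hC] at h2
    have h3 := congrArg (omap ρ) h2
    rwa [hρ3', hρ3'] at h3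
  have hρ : ∀ x, g (omap ρ x) = omap ρ (g x) := by
    intro x
    have h2 := hA (star x)
    rwa [star_star, hS, star_star] at h2
  have hm : ∀ x y, g (x * y) = g x * g y := by
    intro x y
    have h2 := hg1 (star (omap ρ (omap ρ x))) (star (omap ρ y))
    simp only [tri, star_star, hρ3'] at h2
    rw [h2, hS, star_star, hC, hS, star_star, hρ, hρ3', hρ3']
  refine ⟨h1, hm, hS, hρ, fun x => ?_⟩
  have hα0 : α ≠ 0 := by
    intro h
    rw [h, mul_zero] at hα2
    exact a.ne_zero ((map_eq_zero _).mp hα2.symm)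
  have hmo : ∀ t : E, g (mo α t) = mo α t := by
    intro t
    rw [mo_eq, map_add, map_smul, map_sub, he, h1]
  have h2 := hg2 x
  rw [Jm_eq, Jm_eq, hm, hm, hmo, hmo] at h2
  have hn : ∀ t : E, t ≠ 0 → Oct.norm (mo α t : OctL E a b c) ≠ 0 := by
    intro t ht
    have e : Oct.norm (mo α t : OctL E a b c) = t := by
      have h2 : (2 : E) ≠ 0 := NeZero.ne 2
      have ha : ((up E a : Eˣ) : E) = α * α := hα2.symm
      simp only [Oct.norm, mo, mq, nrd, ha, QuaternionAlgebra.re_zero, QuaternionAlgebra.imI_zero,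
        QuaternionAlgebra.imJ_zero, QuaternionAlgebra.imK_zero]
      field_simp
      ring
    rw [e]
    exact ht
  have hq : algebraMap L E (q : L) ≠ 0 := fun h => q.ne_zero ((map_eq_zero _).mp h)
  have hq' : algebraMap L E (q : L) * ρ (algebraMap L E (q : L)) ≠ 0 :=
    mul_ne_zero hq fun h => hq ((map_eq_zero _).mp h)
  have h3 := congrArg (fun z : OctL E a b c => z * star (mo α
    (algebraMap L E (q : L) * ρ (algebraMap L E (q : L))))) h2
  simp only [mul_mul_star] at h3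
  have h4 := congrArg (fun z : OctL E a b c => (Oct.norm (mo α (algebraMap L E (q : L) *
    ρ (algebraMap L E (q : L))) : OctL E a b c))⁻¹ • z) h3
  simp only [smul_smul, inv_mul_cancel₀ (hn _ hq'), one_smul] at h4
  have h5 := congrArg (fun z : OctL E a b c => star (mo α (algebraMap L E (q : L))) * z) h4
  simp only [star_mul_mul] at h5
  have h6 := congrArg (fun z : OctL E a b c => (Oct.norm (mo α (algebraMap L E (q : L)) :
    OctL E a b c))⁻¹ • z) h5
  simpa only [smul_smul, inv_mul_cancel₀ (hn _ hq), one_smul] using h6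

omit [NeZero (2 : E)] in
/-- The points of the octonion algebra over the ground field. -/
theorem exists_oupI (hfix : ∀ x : E, ρ x = x → σ x = x → ι x = x → ∃ t : k, algebraMap k E t = x)
    {y : OctL E a b c} (h1 : omap ρ y = y) (h2 : omap σ y = y) (h3 : omap ι y = y) :
    ∃ x : Oct a b c, oup E x = y := by
  have key : ∀ f : OctL E a b c → E, (∀ (τ : E ≃ₐ[k] E) z, f (omap τ z) = τ (f z)) →
      ∃ s : k, algebraMap k E s = f y := fun f hf =>
    hfix _ (by rw [← hf, h1]) (by rw [← hf, h2]) (by rw [← hf, h3])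
  obtain ⟨s1, e1⟩ := key (fun z => z.fst.re) fun _ _ => rfl
  obtain ⟨s2, e2⟩ := key (fun z => z.fst.imI) fun _ _ => rfl
  obtain ⟨s3, e3⟩ := key (fun z => z.fst.imJ) fun _ _ => rfl
  obtain ⟨s4, e4⟩ := key (fun z => z.fst.imK) fun _ _ => rfl
  obtain ⟨s5, e5⟩ := key (fun z => z.snd.re) fun _ _ => rfl
  obtain ⟨s6, e6⟩ := key (fun z => z.snd.imI) fun _ _ => rfl
  obtain ⟨s7, e7⟩ := key (fun z => z.snd.imJ) fun _ _ => rfl
  obtain ⟨s8, e8⟩ := key (fun z => z.snd.imK) fun _ _ => rfl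
  refine ⟨⟨⟨s1, s2, s3, s4⟩, ⟨s5, s6, s7, s8⟩⟩, ?_⟩
  apply Oct.ext
  · exact QuaternionAlgebra.ext e1 e2 e3 e4
  · exact QuaternionAlgebra.ext e5 e6 e7 e8

/-- The facts on the elements of `GTI` which fix `e₊`. -/
theorem factsI (hα2 : α * α = algebraMap k E a) (hσα : σ α = -α) (hρ3 : ∀ x, ρ (ρ (ρ x)) = x)
    {g : OctL E a b c ≃ₗ[E] OctL E a b c} (hg : g ∈ GTI ρ σ ι α a b c q)
    (he : g (ep α) = ep α) : g 1 = 1 ∧ (∀ x y, g (x * y) = g x * g y) ∧
      (∀ x, g (omap ρ x) = omap ρ (g x)) ∧ (∀ x, g (omap σ x) = omap σ (g x)) ∧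
        ∀ x, g (omap ι x) = omap ι (g x) := by
  obtain ⟨h1, h2, h3, h4, h5⟩ := factsE hα2 hσα hρ3 hg.1 hg.2.1 he
  refine ⟨h1, h2, h4, h5, fun x => ?_⟩
  have h6 := hg.2.2 (star x)
  rwa [Im, Im, star_star, h3, star_star] at h6

/-- The elements which fix `e₊` come from the ground field. -/
theorem exists_fixII (hα2 : α * α = algebraMap k E a) (hσα : σ α = -α)
    (hρ3 : ∀ x, ρ (ρ (ρ x)) = x)
    (hfix : ∀ x : E, ρ x = x → σ x = x → ι x = x → ∃ t : k, algebraMap k E t = x)
    {g : OctL E a b c ≃ₗ[E] OctL E a b c}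
    (hg : g ∈ GTI ρ σ ι α a b c q) (he : g (ep α) = ep α) :
    ∃ g0 : fixI a b c, g = extE E g0.1.1 := by
  obtain ⟨h1, hm, hρ, hσ, hι⟩ := factsI hα2 hσα hρ3 hg he
  have he' : g⁻¹ (ep α) = ep α := by
    apply g.injective
    rw [he]
    exact g.apply_symm_apply _
  obtain ⟨-, hm', hρ', hσ', hι'⟩ := factsI hα2 hσα hρ3 (Subgroup.inv_mem _ hg) he'
  have hx : ∀ x : Oct a b c, ∃ y : Oct a b c, oup E y = g (oup E x) := fun x =>
    exists_oupI hfix (by rw [← hρ, omap_oup]) (by rw [← hσ, omap_oup]) (by rw [← hι, omap_oup])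
  have hx' : ∀ x : Oct a b c, ∃ y : Oct a b c, oup E y = g⁻¹ (oup E x) := fun x =>
    exists_oupI hfix (by rw [← hρ', omap_oup]) (by rw [← hσ', omap_oup])
      (by rw [← hι', omap_oup])
  choose f hf using hx
  choose f' hf' using hx'
  have hα0 : α ≠ 0 := by
    intro h
    rw [h, mul_zero] at hα2
    exact a.ne_zero ((map_eq_zero _).mp hα2.symm)
  let F : Oct a b c ≃ₗ[k] Oct a b c :=
    { toFun := f
      invFun := f'
      left_inv := fun x => oup_inj (E := E) (by
        rw [hf', hf]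
        exact g.symm_apply_apply _)
      right_inv := fun x => oup_inj (E := E) (by
        rw [hf, hf']
        exact g.apply_symm_apply _)
      map_add' := fun x y => oup_inj (E := E) (by rw [hf, oup_add, oup_add, map_add, hf, hf])
      map_smul' := fun t x => oup_inj (E := E) (by
        rw [hf, oup_smul, map_smul, RingHom.id_apply, oup_smul, hf]) }
  have hF : ∀ x, oup E (F x) = g (oup E x) := hf
  have hgi : F gi = gi := oup_inj (E := E) (by
    rw [hF, gi_eq hα0, map_sub, map_smul, map_smul, he, oup_one, h1])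
  refine ⟨⟨⟨F, fun x y => oup_inj (E := E) (by rw [hF, oup_mul, hm, oup_mul, hF, hF])⟩, hgi⟩, ?_⟩
  refine equiv_unique fun x => ?_
  rw [extE_oup]
  exact (hF x).symm

end alg

end Vale.Agent.P011.D4Y.H68

namespace Vale.Agent.P011.D4Y

open Vale.Agent.P011.MPQ Vale.Agent.P011.D4 Vale.Agent.P011.D4.Oct Vale.Agent.P011.D4.Em
open Vale.Agent.P011.D4.B.FI (fixI fixI_top mem_fixI)
open Vale.Agent.P011.D4X

section arith

variable {k L E : Type} [Field k] [NumberField k] [Field L] [Field E]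
  [Algebra k L] [Algebra k E] [Algebra L E]
  [IsScalarTower k L E] [NeZero (2 : E)] {ρ σ ι : E ≃ₐ[k] E} {α : E}
  {a b c : kˣ} {q : Lˣ} (H : HyI ρ σ ι α a b c q)

include H

/-- **F1a**: the automorphisms of the octonion algebra which fix `i`. -/
theorem autI_mem {g : OctL E a b c ≃ₗ[E] OctL E a b c} (hg : g ∈ GTI ρ σ ι α a b c q)
    (he : g (ep α) = ep α) : g ∈ RsI ρ σ ι α a b c q := by
  obtain ⟨g0, hg0⟩ := H68.exists_fixII H.α2 H.σα H.ρ3 H.fixk hg he
  have e1 : (⟨g, hg⟩ : GTI ρ σ ι α a b c q) = H68.extI ρ σ ι α a b c q g0 := Subtype.ext hg0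
  refine ⟨⟨g, hg⟩, ?_, rfl⟩
  rw [e1]
  change H68.extI ρ σ ι α a b c q g0 ∈ fres _
  rw [fres, Subgroup.mem_iInf]
  rintro ⟨N, hN⟩
  have hfin : N.FiniteIndex := ⟨hN⟩
  have hN' : N.normalCore.index ≠ 0 := Subgroup.FiniteIndex.index_ne_zero
  have hnor : (N.normalCore.comap (H68.extI ρ σ ι α a b c q)).Normal :=
    (Subgroup.normalCore_normal N).comap _
  have h := fixI_top H.hdiv (N.normalCore.comap (H68.extI ρ σ ι α a b c q)) hnor
    (B.comap_index _ (Subgroup.normalCore_normal N) hN')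
  have h2 : g0 ∈ N.normalCore.comap (H68.extI ρ σ ι α a b c q) := by
    rw [h]
    exact Subgroup.mem_top _
  exact N.normalCore_le h2

end arith

end Vale.Agent.P011.D4Y
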